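import Vale.Agent.Lib.P226.X.Main
import Vale.Agent.Lib.P226.Y.FourBound

open MeasureTheory ProbabilityTheory

/-- **The Gaussian propeller conjecture (Khot-Naor), full answer.** For all positive integers (in
fact all naturals) `d` and `k`, and every family `A` of `k` pairwise disjoint measurable subsets of
`ℝ^d` (in particular every measurable partition of `ℝ^d` into `k` possibly empty cells), one has
`∑ i, |∫_{A i} x dγ_d(x)|² ≤ 9 / (8 π)`, where `γ_d` is the standard Gaussian measure. -/
theorem Vale.Agent.Results.P226.A000_PropellerConjecture.result (d k : ℕ)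
    (A : Fin k → Set (EuclideanSpace ℝ (Fin d))) (hA : ∀ i, MeasurableSet (A i))
    (hd : Pairwise (Function.onFun Disjoint A)) :
    ∑ i, ‖∫ x in A i, x ∂(stdGaussian (EuclideanSpace ℝ (Fin d)))‖ ^ 2 ≤ 9 / (8 * Real.pi) :=
  Vale.Agent.Lib.P226.moment_bound_of_PB
    (Vale.Agent.Lib.P226.pb_all_of_pb4 Vale.Agent.Lib.P226.PB_four) A hA hd
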