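import Vale.Agent.Lib.P226.X.Main

open MeasureTheory ProbabilityTheory

/-- Reduction of the Gaussian propeller conjecture to four cells: in each dimension `d`, if every
measurable partition of `ℝ^d` into four (possibly empty) cells satisfies the propeller bound
`∑ |z(A_i)|² ≤ 9 / (8 π)`, then so does every finite family of pairwise disjoint measurable sets,
with any number `k` of sets.  The hypothesis is the case `k = 4` of the conjecture, which the
problem file lists as known (Khot-Naor, Heilman-Jagannath-Naor). -/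
theorem Vale.Agent.Results.P226.A00_ReductionToFourCells.result (d : ℕ)
    (H4 : ∀ A : Fin 4 → Set (EuclideanSpace ℝ (Fin d)), (∀ i, MeasurableSet (A i)) →
      Pairwise (Function.onFun Disjoint A) → (∀ x, ∃ i, x ∈ A i) →
      ∑ i, ‖∫ x in A i, x ∂(stdGaussian (EuclideanSpace ℝ (Fin d)))‖ ^ 2 ≤ 9 / (8 * Real.pi))
    (k : ℕ) (A : Fin k → Set (EuclideanSpace ℝ (Fin d))) (hA : ∀ i, MeasurableSet (A i))
    (hd : Pairwise (Function.onFun Disjoint A)) :
    ∑ i, ‖∫ x in A i, x ∂(stdGaussian (EuclideanSpace ℝ (Fin d)))‖ ^ 2 ≤ 9 / (8 * Real.pi) :=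
  Vale.Agent.Lib.P226.moment_bound_of_partitions4 H4 A hA hd
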