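import Vale.Agent.Lib.P226.Reduce

open MeasureTheory ProbabilityTheory

/-- Every finite family of pairwise disjoint measurable subsets of `ℝ^d` with
`∑ ‖∫_{A i} x dγ‖² ≥ 9/(8π)` can be replaced by a measurable partition of `ℝ^d` into at most
`10 ^ 63` cells having at least the same value of the functional, for all `d` and `k`.
So `M(d,k) ≤ max (9/(8π)) (M(d, 10 ^ 63))` for every `k`. -/
theorem Vale.Agent.Results.P226.A0_BoundedCells.result (d k : ℕ)
    (A : Fin k → Set (EuclideanSpace ℝ (Fin d))) (hA : ∀ i, MeasurableSet (A i))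
    (hd : Pairwise (Function.onFun Disjoint A))
    (hF : 9 / (8 * Real.pi) ≤
      ∑ i, ‖∫ x in A i, x ∂(stdGaussian (EuclideanSpace ℝ (Fin d)))‖ ^ 2) :
    ∃ (m : ℕ) (A' : Fin m → Set (EuclideanSpace ℝ (Fin d))), m ≤ 10 ^ 63 ∧
      (∀ i, MeasurableSet (A' i)) ∧ Pairwise (Function.onFun Disjoint A') ∧
      (⋃ i, A' i) = Set.univ ∧
      ∑ i, ‖∫ x in A i, x ∂(stdGaussian (EuclideanSpace ℝ (Fin d)))‖ ^ 2 ≤
        ∑ i, ‖∫ x in A' i, x ∂(stdGaussian (EuclideanSpace ℝ (Fin d)))‖ ^ 2 :=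
  Vale.Agent.Lib.P226.reduce_fin A hA hd hF
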