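import Vale.Agent.Lib.P226.Moments

open MeasureTheory ProbabilityTheory

/-- Dimension-free and cell-number-free bound in the Gaussian propeller problem: for all `d`, `k`
and all pairwise disjoint measurable `A₁, …, A_k ⊆ ℝ^d` (in particular for every measurable
partition), the sum of the squared norms of the Gaussian first moments is at most `0.405`. -/
theorem Vale.Agent.Results.P226.A_UniversalBound.result (d k : ℕ)
    (A : Fin k → Set (EuclideanSpace ℝ (Fin d))) (hA : ∀ i, MeasurableSet (A i))
    (hd : Pairwise (Function.onFun Disjoint A)) :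
    ∑ i, ‖∫ x in A i, x ∂(stdGaussian (EuclideanSpace ℝ (Fin d)))‖ ^ 2 ≤ 81 / 200 :=
  Vale.Agent.Lib.P226.sum_norm_sq_moment_le A hA hd
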