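import Vale.Agent.Lib.P226.CellBounds

open MeasureTheory ProbabilityTheory Real

/-- The propeller inequality holds for all `d`, `k` and all pairwise disjoint measurable
`A₁, …, A_k ⊆ ℝ^d` none of which has Gaussian measure strictly between `1/7` and `4/9`; in general
the excess over `9/(8π)` is at most `(81/200 - 9/(8π))` times the total Gaussian measure of the
cells with measure strictly between `1/7` and `4/9`. -/
theorem Vale.Agent.Results.P226.B_NoMidCells.result (d k : ℕ)
    (A : Fin k → Set (EuclideanSpace ℝ (Fin d))) (hA : ∀ i, MeasurableSet (A i))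
    (hd : Pairwise (Function.onFun Disjoint A)) :
    (∑ i, ‖∫ x in A i, x ∂(stdGaussian (EuclideanSpace ℝ (Fin d)))‖ ^ 2 ≤
      9 / (8 * π) + (81 / 200 - 9 / (8 * π)) *
        ∑ i, if (1 / 7 < ((stdGaussian (EuclideanSpace ℝ (Fin d))) (A i)).toReal ∧
            ((stdGaussian (EuclideanSpace ℝ (Fin d))) (A i)).toReal < 4 / 9)
          then ((stdGaussian (EuclideanSpace ℝ (Fin d))) (A i)).toReal else 0) ∧
    ((∀ i, ((stdGaussian (EuclideanSpace ℝ (Fin d))) (A i)).toReal ≤ 1 / 7 ∨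
        4 / 9 ≤ ((stdGaussian (EuclideanSpace ℝ (Fin d))) (A i)).toReal) →
      ∑ i, ‖∫ x in A i, x ∂(stdGaussian (EuclideanSpace ℝ (Fin d)))‖ ^ 2 ≤ 9 / (8 * π)) :=
  ⟨Vale.Agent.Lib.P226.sum_norm_sq_le_interp A hA hd,
    fun h => Vale.Agent.Lib.P226.sum_norm_sq_le_of_no_mid A hA hd h⟩
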